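import Crest.Agent.X212.Lab56.Gd

/-!
# Row 212, LAB-P (helper9): lines are trivial on the exteriors of the good tubes
-/

set_option autoImplicit false
set_option linter.unusedSectionVars false
noncomputable section
open Set Filter Topology Function Matrix
open scoped ContDiff Manifold

namespace Crest.Agent.X212.Lab9
open Lab56 Line51 Pic56 Pj41
open Rod53 hiding X cj Uni

theorem pic_tor : Pic0 IT (univ : Set (Circle × ℂ)) univ := fun n _ _ q hq => by
  obtain ⟨s, hs⟩ := frame_circle (hq.isLine.comp (g := fun u : Circle => ((u, 0) : Circle × ℂ)) (T := univ)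
    (by fun_prop) (mapsTo_univ _ _))
  exact Dfm.fr (O := univ) (O₀ := {z : Circle × ℂ | z.2 = 0})
    ⟨fun z : ℝ × (Circle × ℂ) => (z.2.1, (z.1 : ℂ) * z.2.2), by fun_prop, fun _ _ _ _ => trivial,
    fun _ _ => by simp, fun _ _ => by simp⟩ isOpen_univ hq ((hs.comp (g := Prod.fst) (by fun_prop)
      (mapsTo_univ _ _)).congr (fun z hz => by rw [← hz.out]) fun _ _ => rfl)

variable {N : Type} [TopologicalSpace N] [ChartedSpace E3 N] [IsManifold (𝓡 3) ∞ N] [T2Space N]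
  {Y : Type} [TopologicalSpace Y] [ChartedSpace E3 Y] [IsManifold (𝓡 3) ∞ Y] [T2Space Y]
  {T : Tb (𝓡 3) N} {θ : N → Circle} {a b : Z2}

theorem pic_tube (T : Tb (𝓡 3) N) : Pic0 (𝓡 3) univ (range T.τ) :=
  pic_tor.comp (f := T.oe.pd.symm) (fun _ h => T.oe.pd.symm.contMDiffOn_toFun.contMDiffAt
    (T.oe.isOpen_range.mem_nhds h)) (mapsTo_univ _ _) (fun x _ => T.oe.contMDiff x) (mapsTo_univ _ _)
    fun _ h => T.oe.pd.right_inv h

theorem sm_symm (F : Fl T a b (𝓡 3) Y) {y : Y} (h : y ∈ F.tb.Ex) :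
    ContMDiffAt (𝓡 3) (𝓡 3) ∞ F.pe.symm y ∧ F.pe.symm y ∈ T.Ex ∧ F.e (F.pe.symm y) = y :=
  have k : y ∈ F.pe.target := F.tb_Ex ▸ h
  ⟨F.pe.symm.contMDiffOn_toFun.contMDiffAt (F.pe.open_target.mem_nhds k), F.pe.map_target k,
    F.pe.right_inv k⟩

theorem fill [CompactSpace N] (F : Fl T a b (𝓡 3) Y) (hu : Rod53.Uni a b) (h : Pic0 (𝓡 3) univ T.Ex) :
    Pic0 (𝓡 3) univ F.tb.Ex := fun n _ _ q hq => by
  obtain ⟨S, hS⟩ := pic_tube F.tb n q hq
  have c : T.Ex ∪ range T.τ = univ := eq_univ_of_forall fun p => (T.Ex_or p).imp_right fun ⟨_, e⟩ => ⟨_, e⟩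
  have he := fun p hp => (F.ld_e (p := p) hp).contMDiffAt
  obtain ⟨P, α, β, h1, h2, h3, -⟩ := exists_glue_two (I := 𝓡 3) T.isOpen_Ex T.oe.isOpen_range c
    (p := fun x => q (F.e x)) (q := fun _ => (1 : Matrix Unit Unit ℂ)) (u := fun x => (S (F.e x))ᴴ)
    (fun x hx => ⟨(hq.sm _ trivial).comp (he x hx), hq.prj _ trivial⟩) (fun _ _ => ⟨.const _, .one⟩) (by
      rintro _ hx ⟨w, rfl⟩
      have : F.e (T.τ w) ∈ range F.tb.τ := ⟨_, (F.e_τ' hu (T.τ_mem.1 hx)).symm⟩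
      exact ⟨((hS.sm _ this).comp (he _ hx)).ct, (hS.iso _ this).symm⟩)
  obtain ⟨s, hs⟩ := h _ P ⟨fun x _ => (h1 x).1, fun x _ => (h1 x).2, fun x _ =>
    (c.ge (mem_univ x)).elim (fun k => (h2 x k).2.trace_eq ▸ hq.tr _ trivial)
      fun k => (h3 x k).2.trace_eq ▸ by simp⟩
  exact ⟨_, uni_of_eq ((hs.trans (Uni.symm ⟨fun x k => (h2 x k).1, fun x k => (h2 x k).2⟩)).comp
    ⟨fun y k => (sm_symm F k).1, fun y k => (sm_symm F k).2.1⟩) (fun _ _ => rfl)
    fun y k => by rw [(sm_symm F k).2.2]⟩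

theorem mer [CompactSpace N] (F : Fl T a b (𝓡 3) Y) (hu : Rod53.Uni a b) (hθ : Ang T θ (0, 1))
    (h : Pic0 (𝓡 3) univ T.Ex) : Pic0 (𝓡 3) univ F.mer.Ex := fun n _ _ q hq => by
  have := F.compact hu
  have := Manifold.metrizableSpace (𝓡 3) Y
  obtain ⟨s, hs⟩ := fill F hu h n q hq
  obtain ⟨s', hs'⟩ := pic_tube F.tb n q hq
  replace hs := frame_of_uni hs
  replace hs' := frame_of_uni hs'
  obtain ⟨φ, φ1, φ2, φ3⟩ := (hq.isLine.mono (subset_univ _)).ratio
    (hs'.mono (inter_subset_right (s := F.tb.Ex))) (hs.mono inter_subset_left)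
  let k : Circle × Circle → Circle × ℂ := fun z => (z.1, (1 / 4 : ℝ) * z.2)
  have k1 : ∀ z, ‖(k z).2‖ = 1 / 4 := fun z => norm_polar (by norm_num) _
  have ne : ∀ {w : Circle × ℂ}, ‖w.2‖ = 1 / 4 → w.2 ≠ 0 := fun h e => by norm_num [e] at h
  have km : ∀ z, F.it (k z) ∈ F.tb.Ex ∩ range F.tb.τ := fun z => ⟨F.tb.τ_mem.2 (ne (k1 z)), _, rfl⟩
  obtain ⟨c, d, hl⟩ := exists_deg_torus (φ := fun z => φ (F.it (k z)))
    (φ1.comp_continuous (F.oeT.continuous.comp (by fun_prop)) km) fun z => φ2 _ (km z)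
  let η := dual a b (-d) (-c)
  let g : Y → Circle := fun y => T.ang (F.pe.symm y) ^ η.1 * θ (F.pe.symm y) ^ η.2
  have gk : ∀ z, g (F.it (k z)) = z.2 ^ (-d) * z.1 ^ (-c) := fun z => by
    have := chT_gl η a b (ne (k1 z))
    rw [dual_left hu, dual_right hu, Glue52.dir_mul (by norm_num)] at this
    simp only [g]
    rw [← F.e_τ (ne (k1 z)), F.pe_symm_e (T.τ_mem.2 (gl_ne.2 (ne (k1 z)))), T.ang_τ,
      ga_near ((norm_gl _ _ _).trans (k1 z)).le, hθ.eq _ (gl_ne.2 (ne (k1 z))), ← this]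
    simp [chT]
  let A : Set F.mer.Ex := Subtype.val ⁻¹' (F.it '' {w | ‖w.2‖ < 1 / 4})ᶜ
  let B : Set F.mer.Ex := Subtype.val ⁻¹' (F.it '' {w | ‖w.2‖ ≤ 1 / 4})
  have mA : ∀ x ∈ A, x.1 ∈ F.tb.Ex := fun x hx u e => hx ⟨_, by simp, e⟩
  have mB : ∀ x ∈ B, x.1 ∈ range F.tb.τ := fun x hx => image_subset_range _ _ hx
  have cg : ContinuousOn (fun x : F.mer.Ex => (g x : ℂ)) A := fun x hx => by
    obtain ⟨e1, e2, e3⟩ := sm_symm F (mA x hx)
    exact (continuous_subtype_val.continuousAt.comp (ContinuousAt.comp (g := g)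
      ((((T.cm_ang ((F.e_mem_mer e2).1 (e3.symm ▸ x.2))).continuousAt.comp e1.continuousAt).zpow _).mul
        (((hθ.sm _ e2).continuousAt.comp e1.continuousAt).zpow _))
      continuous_subtype_val.continuousAt)).continuousWithinAt
  obtain ⟨t, ht, -⟩ := IsLine.patch (A := A) (B := B)
    ((F.oeT.isOpen_image (isOpen_lt (by fun_prop) continuous_const)).isClosed_compl.preimage
      continuous_subtype_val) ((F.tb.isClosed_tube _).preimage continuous_subtype_val)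
    (hq.isLine.comp continuous_subtype_val.continuousOn (mapsTo_univ _ _))
    ((hs.comp continuous_subtype_val.continuousOn mA).smul cg fun _ _ => Circle.coe_ne_zero _)
    (hs'.comp continuous_subtype_val.continuousOn mB) fun ψ _ _ e => by
      have ex : ∀ x ∈ A ∩ B, ∃ z, x.1 = F.it (k z) := by
        rintro x ⟨h1, w, h2, e⟩
        have : ‖w.2‖ = 1 / 4 := le_antisymm h2 (not_lt.1 fun l => h1 ⟨w, l, e⟩)
        exact ⟨(w.1, Glue52.dir w.2), by simp only [k, ← this, Glue52.norm_mul_dir, e]⟩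
      refine (hl.comp (g := fun x : F.mer.Ex => ((F.oeT.pd.symm x).1, Glue52.dir (F.oeT.pd.symm x).2))
        (fun x hx => ?_) (mapsTo_univ _ _)).congr fun x hx => ?_
      · obtain ⟨z, e⟩ := ex x hx
        have c : ContinuousAt (fun x : F.mer.Ex => F.oeT.pd.symm x) x :=
          (F.oeT.pd.symm.contMDiffOn_toFun.continuousOn.continuousAt (F.oeT.isOpen_range.mem_nhds
            (mB x hx.2))).comp continuous_subtype_val.continuousAt
        exact (c.fst.prodMk ((cm_dir (I := 𝓘(ℝ, ℂ)) contMDiffAt_id (by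
          rw [e, F.oeT.pd_symm_apply]; exact ne (k1 z))).continuousAt.comp c.snd)).continuousWithinAt
      · obtain ⟨z, e'⟩ := ex x hx
        have := e x hx
        rw [φ3 _ ⟨mA x hx.1, mB x hx.2⟩, smul_smul] at this
        rw [← smul_left_injective ℂ (hs'.ne _ (mB x hx.2)) this, e', gk, F.oeT.pd_symm_apply,
          Glue52.dir_mul (by norm_num)]
        simp [k, mul_comm]
  exact exists_fr_of_frame F.mer.isOpen_Ex (hq.mono (subset_univ _)) (ht.mono fun x _ =>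
    (_root_.em _).symm.imp_right fun ⟨w, h, e⟩ => ⟨w, (h.out.le : ‖w.2‖ ≤ 1 / 4), e⟩)

theorem pStmt : PStmt where
  s3 := fun n _ _ q hq =>
    let ⟨_, hs⟩ := frame_sphere (.inr (by simp)) hq.isLine
    exists_fr_of_frame isOpen_univ hq (hs.comp continuous_subtype_val.continuousOn (mapsTo_univ _ _))
  fill := fill
  mer := mer

end Crest.Agent.X212.Lab9
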